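import Vale.Agent.P287D.Pb.Bas
import Vale.Agent.P287D.Va.Bas

/-!
# P287D: isomorphisms of function fields (possibly semilinear), places
-/

set_option linter.all false

open Set
open Vale.Agent.P297 (Place)
open Vale.Agent.P297Z

noncomputable section

namespace Vale.Agent.P287D

variable {K K' K'' : Type} [Field K] [Algebra ℂ K] [Field K'] [Algebra ℂ K'] [Field K'']
  [Algebra ℂ K'']

/-- an isomorphism of fields which maps the constants onto the constants -/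
structure Semi (φ : K →+* K') : Prop where
  sur : Function.Surjective φ
  cst : ∀ c, φ (algebraMap ℂ K c) ∈ range (algebraMap ℂ K')
  tsc : ∀ c, ∃ c', φ (algebraMap ℂ K c') = algebraMap ℂ K' c

namespace Semi

theorem refl : Semi (RingHom.id K) := ⟨Function.surjective_id, fun c => ⟨c, rfl⟩, fun c => ⟨c, rfl⟩⟩

theorem of_algHom (φ : K →ₐ[ℂ] K') (h : Function.Surjective φ) : Semi (φ : K →+* K') :=
  ⟨h, fun c => ⟨c, (φ.commutes c).symm⟩, fun c => ⟨c, φ.commutes c⟩⟩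

theorem of_alg (φ : K ≃ₐ[ℂ] K') : Semi (φ : K →+* K') :=
  ⟨φ.surjective, fun c => ⟨c, (φ.commutes c).symm⟩, fun c => ⟨c, φ.commutes c⟩⟩

theorem of_equiv (φ : K ≃+* K') (h : ∀ c, φ (algebraMap ℂ K c) ∈ range (algebraMap ℂ K'))
    (h' : ∀ c, φ.symm (algebraMap ℂ K' c) ∈ range (algebraMap ℂ K)) : Semi (φ : K →+* K') :=
  ⟨φ.surjective, h, fun c => by
    obtain ⟨c', hc⟩ := h' c
    exact ⟨c', by rw [hc]; exact φ.apply_symm_apply _⟩⟩

theorem comp {φ : K →+* K'} {ψ : K' →+* K''} (h' : Semi ψ) (h : Semi φ) : Semi (ψ.comp φ) where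
  sur := h'.sur.comp h.sur
  cst c := by
    obtain ⟨a, ha⟩ := h.cst c
    rw [RingHom.comp_apply, ← ha]
    exact h'.cst a
  tsc c := by
    obtain ⟨a, ha⟩ := h'.tsc c
    obtain ⟨b, hb⟩ := h.tsc a
    exact ⟨b, by rw [RingHom.comp_apply, hb, ha]⟩

variable {φ : K →+* K'} (h : Semi φ)
include h

/-- the isomorphism -/
def e : K ≃+* K' := RingEquiv.ofBijective φ ⟨φ.injective, h.sur⟩

@[simp] theorem e_apply (f : K) : h.e f = φ f := rfl

/-- the inverse -/
def inv : K' →+* K := h.e.symm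

@[simp] theorem inv_apply (f : K) : h.inv (φ f) = f := h.e.symm_apply_apply f

@[simp] theorem apply_inv (f : K') : φ (h.inv f) = f := h.e.apply_symm_apply f

theorem symm : Semi h.inv where
  sur := h.e.symm.surjective
  cst c := by
    obtain ⟨a, ha⟩ := h.tsc c
    exact ⟨a, by rw [← ha, inv_apply]⟩
  tsc c := by
    obtain ⟨a, ha⟩ := h.cst c
    exact ⟨a, by rw [ha, inv_apply]⟩

theorem inv_inv : h.symm.inv = φ := by
  ext f
  apply h.inv.injective
  rw [h.symm.apply_inv, inv_apply]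

/-- the map on the constants -/
def σ₀ : ℂ →+* ℂ where
  toFun c := (h.cst c).choose
  map_one' := (algebraMap ℂ K').injective (by rw [(h.cst _).choose_spec]; simp)
  map_zero' := (algebraMap ℂ K').injective (by rw [(h.cst _).choose_spec]; simp)
  map_mul' a b := (algebraMap ℂ K').injective (by
    rw [(h.cst _).choose_spec, map_mul (algebraMap ℂ K'), (h.cst _).choose_spec,
      (h.cst _).choose_spec]; simp)
  map_add' a b := (algebraMap ℂ K').injective (by
    rw [(h.cst _).choose_spec, map_add (algebraMap ℂ K'), (h.cst _).choose_spec,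
      (h.cst _).choose_spec]; simp)

theorem σ₀_spec (c : ℂ) : φ (algebraMap ℂ K c) = algebraMap ℂ K' (h.σ₀ c) :=
  (h.cst c).choose_spec.symm

/-- the automorphism of the constants -/
def σ : ℂ ≃+* ℂ := RingEquiv.ofBijective h.σ₀ ⟨h.σ₀.injective, fun c => by
  obtain ⟨a, ha⟩ := h.tsc c
  exact ⟨a, (algebraMap ℂ K').injective (by rw [← σ₀_spec, ha])⟩⟩

theorem map_cst (c : ℂ) : φ (algebraMap ℂ K c) = algebraMap ℂ K' (h.σ c) := h.σ₀_spec c

theorem map_smul (c : ℂ) (f : K) : φ (c • f) = h.σ c • φ f := by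
  rw [Algebra.smul_def, Algebra.smul_def, map_mul, h.map_cst]

theorem comp_cst : (algebraMap ℂ K').comp (h.σ : ℂ →+* ℂ) = (h.e : K →+* K').comp (algebraMap ℂ K) :=
  RingHom.ext fun c => (h.map_cst c).symm

theorem algInd {ι : Type} {y : ι → K} :
    AlgebraicIndependent ℂ (fun i => φ (y i)) ↔ AlgebraicIndependent ℂ y :=
  algebraicIndependent_ringHom_iff_of_comp_eq h.σ h.e h.e.injective h.comp_cst

theorem trdeg_le : Algebra.trdeg ℂ K ≤ Algebra.trdeg ℂ K' := by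
  obtain ⟨s, hs⟩ := exists_isTranscendenceBasis ℂ K
  rw [← hs.cardinalMk_eq_trdeg]
  exact (h.algInd.2 hs.1).cardinalMk_le_trdeg

theorem trdeg : Algebra.trdeg ℂ K = Algebra.trdeg ℂ K' := le_antisymm h.trdeg_le h.symm.trdeg_le

/-! ### subfields -/

/-- the image of a subfield -/
def sub (L : IntermediateField ℂ K) : IntermediateField ℂ K' :=
  (L.toSubfield.map φ).toIntermediateField fun c => by
    obtain ⟨a, ha⟩ := h.tsc c
    exact ⟨_, L.algebraMap_mem a, ha⟩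

theorem mem_sub {L : IntermediateField ℂ K} {f : K'} : f ∈ h.sub L ↔ h.inv f ∈ L :=
  ⟨fun ⟨a, ha, e⟩ => by rw [← e, inv_apply]; exact ha, fun k => ⟨_, k, h.apply_inv f⟩⟩

@[simp] theorem map_mem_sub {L : IntermediateField ℂ K} {f : K} : φ f ∈ h.sub L ↔ f ∈ L := by
  rw [mem_sub, inv_apply]

theorem sub_symm (L : IntermediateField ℂ K) : h.symm.sub (h.sub L) = L := by
  ext f
  rw [mem_sub, inv_inv, map_mem_sub]

theorem symm_sub (L : IntermediateField ℂ K') : h.sub (h.symm.sub L) = L := by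
  ext f
  rw [mem_sub, map_mem_sub]

theorem sub_le {L L' : IntermediateField ℂ K} : h.sub L ≤ h.sub L' ↔ L ≤ L' :=
  ⟨fun k f hf => h.map_mem_sub.1 (k (h.map_mem_sub.2 hf)), fun k f hf =>
    h.mem_sub.2 (k (h.mem_sub.1 hf))⟩

theorem sub_top : h.sub ⊤ = ⊤ := by
  ext f
  simp [mem_sub]

theorem sub_bot : h.sub ⊥ = ⊥ := by
  ext f
  rw [mem_sub, IntermediateField.mem_bot, IntermediateField.mem_bot]
  constructor
  · rintro ⟨c, hc⟩
    exact ⟨h.σ c, by rw [← h.map_cst, hc, apply_inv]⟩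
  · rintro ⟨c, rfl⟩
    exact h.symm.cst c

theorem sub_adjoin_le (s : Set K) :
    IntermediateField.adjoin ℂ (φ '' s) ≤ h.sub (IntermediateField.adjoin ℂ s) :=
  IntermediateField.adjoin_le_iff.2 (by
    rintro _ ⟨f, hf, rfl⟩
    exact h.map_mem_sub.2 (IntermediateField.subset_adjoin _ _ hf))

theorem sub_adjoin (s : Set K) :
    h.sub (IntermediateField.adjoin ℂ s) = IntermediateField.adjoin ℂ (φ '' s) := by
  refine le_antisymm ?_ (h.sub_adjoin_le s)
  rw [← h.symm.sub_le, sub_symm]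
  have := h.symm.sub_adjoin_le (φ '' s)
  rwa [image_image, show (fun x => h.inv (φ x)) = id from funext h.inv_apply, image_id] at this

/-- the restriction to a subfield -/
def res₀ (L : IntermediateField ℂ K) : L →+* h.sub L :=
  (φ.comp (algebraMap L K)).codRestrict (h.sub L) fun f => h.map_mem_sub.2 f.2

@[simp] theorem coe_res₀ (L : IntermediateField ℂ K) (f : L) : (h.res₀ L f : K') = φ f := rfl

theorem semi_res₀ (L : IntermediateField ℂ K) : Semi (h.res₀ L) where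
  sur f := ⟨⟨h.inv f, h.mem_sub.1 f.2⟩, Subtype.ext (h.apply_inv _)⟩
  cst c := ⟨h.σ c, Subtype.ext (h.map_cst c).symm⟩
  tsc c := by
    obtain ⟨a, ha⟩ := h.tsc c
    exact ⟨a, Subtype.ext ha⟩

theorem comp_res₀ (L : IntermediateField ℂ K) :
    (algebraMap (h.sub L) K').comp ((h.semi_res₀ L).e : L →+* h.sub L) =
      (h.e : K →+* K').comp (algebraMap L K) := RingHom.ext fun _ => rfl

theorem finrank_sub (L : IntermediateField ℂ K) :
    Module.finrank (h.sub L) K' = Module.finrank L K :=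
  (Algebra.finrank_eq_of_equiv_equiv (h.semi_res₀ L).e h.e (h.comp_res₀ L)).symm

theorem finite_sub (L : IntermediateField ℂ K) [FiniteDimensional L K] :
    FiniteDimensional (h.sub L) K' :=
  Module.Finite.of_equiv_equiv (h.semi_res₀ L).e h.e (h.comp_res₀ L)

theorem ff {n : ℕ} (k : FF K n) : FF K' n := by
  obtain ⟨y, h1, h2⟩ := k
  refine ⟨fun i => φ (y i), h.algInd.2 h1, ?_⟩
  have := h.finite_sub (IntermediateField.adjoin ℂ (range y))
  rwa [sub_adjoin, ← range_comp] at this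

theorem ff_iff {n : ℕ} : FF K' n ↔ FF K n := ⟨h.symm.ff, h.ff⟩

theorem isAlg {L : IntermediateField ℂ K} {f : K} :
    IsAlgebraic (h.sub L) (φ f) ↔ IsAlgebraic L f :=
  isAlgebraic_ringHom_iff_of_comp_eq (h.semi_res₀ L).e h.e h.e.injective (h.comp_res₀ L)

theorem cld {L : IntermediateField ℂ K} : Cld (h.sub L) ↔ Cld L := by
  constructor
  · intro k f hf
    exact h.map_mem_sub.1 (k _ (h.isAlg.2 hf))
  · intro k f hf
    obtain ⟨g, rfl⟩ := h.sur f
    exact h.map_mem_sub.2 (k _ (h.isAlg.1 hf))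

omit h in
theorem adjoin_top_iff (L : IntermediateField ℂ K) (s : Set K) :
    IntermediateField.adjoin L s = ⊤ ↔ IntermediateField.adjoin ℂ ((L : Set K) ∪ s) = ⊤ := by
  rw [← IntermediateField.restrictScalars_adjoin, IntermediateField.restrictScalars_eq_top_iff]

theorem coe_sub (L : IntermediateField ℂ K) : (h.sub L : Set K') = φ '' L := rfl

theorem ruled' {L : IntermediateField ℂ K} (k : Ruled L) : Ruled (h.sub L) := by
  obtain ⟨t, h1, h2⟩ := k
  refine ⟨φ t, fun k => h1 (h.isAlg.1 k), ?_⟩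
  rw [adjoin_top_iff] at h2 ⊢
  rw [coe_sub, ← image_singleton, ← image_union, ← h.sub_adjoin, h2, sub_top]

theorem ruled {L : IntermediateField ℂ K} : Ruled (h.sub L) ↔ Ruled L :=
  ⟨fun k => h.sub_symm L ▸ h.symm.ruled' k, h.ruled'⟩

/-! ### places -/

/-- the rings of corresponding places -/
def rE (V : ValuationSubring K) : V ≃+* V.comap h.inv where
  toFun f := ⟨φ f, by rw [ValuationSubring.mem_comap, inv_apply]; exact f.2⟩
  invFun f := ⟨h.inv f, f.2⟩
  left_inv f := Subtype.ext (h.inv_apply _)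
  right_inv f := Subtype.ext (h.apply_inv _)
  map_mul' f g := Subtype.ext (map_mul φ _ _)
  map_add' f g := Subtype.ext (map_add φ _ _)

/-- the image of a place -/
def plc (P : Place K) : Place K' :=
  ⟨P.ring.comap h.inv,
    IsDiscreteValuationRing.RingEquivClass.isDiscreteValuationRing (h.rE P.ring)⟩

theorem mem_plc {P : Place K} {f : K} : φ f ∈ (h.plc P).ring ↔ f ∈ P.ring := by
  change h.inv (φ f) ∈ P.ring ↔ _
  rw [inv_apply]

theorem ord_plc (P : Place K) (f : K) : (h.plc P).ord (φ f) = P.ord f := by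
  obtain ⟨t, t0, ht⟩ := Pl.exists_ord_eq_one P
  have key : ∀ f : K, f ≠ 0 → (h.plc P).ord (φ f) = P.ord f * (h.plc P).ord (φ t) := by
    intro f f0
    have u0 : f * t ^ (-P.ord f) ≠ 0 := mul_ne_zero f0 (zpow_ne_zero _ t0)
    have u : P.ord (f * t ^ (-P.ord f)) = 0 := by
      rw [Pl.ord_mul _ f0 (zpow_ne_zero _ t0), Pl.ord_zpow, ht]; ring
    rw [Pl.ord_eq_zero_iff _ u0, ← h.mem_plc, ← h.mem_plc, map_inv₀,
      ← Pl.ord_eq_zero_iff _ ((map_ne_zero φ).2 u0), map_mul, map_zpow₀,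
      Pl.ord_mul _ ((map_ne_zero φ).2 f0) (zpow_ne_zero _ ((map_ne_zero φ).2 t0)),
      Pl.ord_zpow] at u
    linarith
  have one : (h.plc P).ord (φ t) = 1 := by
    obtain ⟨s, s0, hs⟩ := Pl.exists_ord_eq_one (h.plc P)
    obtain ⟨s, rfl⟩ := h.sur s
    rw [key s ((map_ne_zero φ).1 s0)] at hs
    have p : 0 ≤ (h.plc P).ord (φ t) := Pl.ord_nonneg_of_mem _ (h.mem_plc.2
      ((Pl.ord_nonneg_iff _ t0).1 (by omega)))
    exact Int.eq_one_of_mul_eq_one_left p hs
  by_cases f0 : f = 0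
  · simp [f0]
  · rw [key f f0, one, mul_one]

/-- the residue fields of corresponding places -/
def κ₀ (P : Place K) : IsLocalRing.ResidueField P.ring ≃+* IsLocalRing.ResidueField (h.plc P).ring :=
  IsLocalRing.ResidueField.mapEquiv (h.rE P.ring)

theorem con {P : Place K} (c : ∀ c, algebraMap ℂ K c ∈ P.ring) (a : ℂ) :
    algebraMap ℂ K' a ∈ (h.plc P).ring := by
  obtain ⟨b, hb⟩ := h.tsc a
  rw [← hb, mem_plc]
  exact c b

theorem κ₀_cst {P : Place K} (c : ∀ c, algebraMap ℂ K c ∈ P.ring) (a : ℂ) :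
    h.κ₀ P (P287D.cst P c a) = P287D.cst (h.plc P) (h.con c) (h.σ a) := by
  change IsLocalRing.residue _ (h.rE P.ring _) = IsLocalRing.residue _ _
  exact congrArg _ (Subtype.ext (h.map_cst a))

theorem κ₀_semi {P : Place K} (c : ∀ c, algebraMap ℂ K c ∈ P.ring) :
    @Semi _ _ _ (P287D.cst P c).toAlgebra _ (P287D.cst (h.plc P) (h.con c)).toAlgebra
      (h.κ₀ P : _ →+* _) :=
  @Semi.mk _ _ _ (P287D.cst P c).toAlgebra _ (P287D.cst (h.plc P) (h.con c)).toAlgebra _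
    (h.κ₀ P).surjective (fun a => ⟨h.σ a, (h.κ₀_cst c a).symm⟩) fun a =>
      ⟨h.σ.symm a, (h.κ₀_cst c _).trans (by rw [RingEquiv.apply_symm_apply]; rfl)⟩

/-- the image of a divisorial place -/
def pl₀ (P : Pl K) : Pl K' where
  toPlace := h.plc P.toPlace
  con := h.con P.con
  dvl := by
    rw [← h.trdeg, ← P.dvl]
    exact congrArg (· + 1) (@trdeg _ _ _ (_) _ (_) _ (h.κ₀_semi P.con)).symm

omit h in
theorem _root_.Vale.Agent.P287D.Pl.ext_mem {P Q : Pl K} (k : ∀ f, f ∈ P.ring ↔ f ∈ Q.ring) :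
    P = Q := by
  have : P.toPlace = Q.toPlace := P297Z.Pl.ext' (ValuationSubring.ext _ _ k)
  cases P; cases Q; cases this; rfl

/-- **the bijection of the divisorial places** -/
def pl : Pl K ≃ Pl K' where
  toFun := h.pl₀
  invFun := h.symm.pl₀
  left_inv P := Pl.ext_mem fun f => by
    change h.inv (h.symm.inv f) ∈ P.ring ↔ _
    rw [inv_inv, inv_apply]
  right_inv P := Pl.ext_mem fun f => by
    change h.symm.inv (h.inv f) ∈ P.ring ↔ _
    rw [inv_inv, apply_inv]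

theorem pl_symm : h.pl.symm = h.symm.pl := Equiv.ext fun _ => rfl

@[simp] theorem mem_pl {P : Pl K} {f : K} : φ f ∈ (h.pl P).ring ↔ f ∈ P.ring := h.mem_plc

@[simp] theorem ord_pl (P : Pl K) (f : K) : (h.pl P).ord (φ f) = P.ord f := h.ord_plc _ f

theorem lies (P : Pl K) : Lies φ (h.pl P) P := fun _ => h.mem_pl.symm

theorem lies_iff {P : Pl K'} {Q : Pl K} : Lies φ P Q ↔ P = h.pl Q :=
  ⟨fun k => Pl.ext_mem fun f => by
    obtain ⟨g, rfl⟩ := h.sur f
    rw [← k g, mem_pl], fun k => k ▸ h.lies Q⟩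

/-- the isomorphism of the residue fields -/
def κ (P : Pl K) : P.κ →+* (h.pl P).κ := RingHomClass.toRingHom (h.κ₀ P.toPlace)

theorem κ_semi (P : Pl K) : Semi (h.κ P) := h.κ₀_semi P.con

theorem κ_cst (P : Pl K) (c : ℂ) : h.κ P (algebraMap ℂ _ c) = algebraMap ℂ _ (h.σ c) :=
  h.κ₀_cst P.con c

theorem κ_rd (P : Pl K) (f : K) : h.κ P (P.rd f) = (h.pl P).rd (φ f) := by
  by_cases k : f ∈ P.ring
  · rw [show P.rd f = _ from dif_pos k, show (h.pl P).rd (φ f) = _ from dif_pos (h.mem_pl.2 k)]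
    rfl
  · rw [show P.rd f = 0 from dif_neg k,
      show (h.pl P).rd (φ f) = 0 from dif_neg fun k' => k (h.mem_pl.1 k'), map_zero]

omit h in
/-- for an isomorphism over `ℂ` the residue fields are isomorphic over `ℂ` -/
def κA (φ : K ≃ₐ[ℂ] K') (P : Pl K) : P.κ ≃ₐ[ℂ] ((of_alg φ).pl P).κ :=
  AlgEquiv.ofRingEquiv (f := ((of_alg φ).κ_semi P).e) fun c => by
    have : (of_alg φ).σ c = c := (algebraMap ℂ K').injective
      (((of_alg φ).map_cst c).symm.trans (φ.commutes c))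
    rw [e_apply, κ_cst, this]

@[simp] theorem pb_pl (β : BD K) (P : Pl K) : pb φ β (h.pl P) = β P := by
  have k : ∃ Q, Lies φ (h.pl P) Q := ⟨P, h.lies P⟩
  have e : k.choose = P := (h.pl.injective (h.lies_iff.1 k.choose_spec)).symm
  unfold pb
  rw [dif_pos k, e, ord_pl, Pl.ord_t, Int.cast_one, one_mul]

theorem pb_apply (β : BD K) (P : Pl K') : pb φ β P = β (h.pl.symm P) := by
  rw [← h.pb_pl β, Equiv.apply_symm_apply]

theorem pb_eq (β : BD K) : pb φ β = fun P => β (h.pl.symm P) := funext (h.pb_apply β)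

theorem ok : Ok φ := fun P => Or.inr ⟨h.pl.symm P, h.lies_iff.2 (h.pl.apply_symm_apply P).symm⟩

@[simp] theorem inv_pb (β : BD K) : pb h.inv (pb φ β) = β := by
  funext P
  rw [h.symm.pb_apply, ← pl_symm, Equiv.symm_symm, pb_pl]

@[simp] theorem pb_inv (β : BD K') : pb φ (pb h.inv β) = β := by
  funext P
  rw [h.pb_apply, pl_symm, h.symm.pb_pl]

theorem pb_sur (β : BD K') : ∃ γ, pb φ γ = β := ⟨_, h.pb_inv β⟩

theorem pb_inj {β γ : BD K} : pb φ β = pb φ γ ↔ β = γ :=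
  ⟨fun k => by rw [← h.inv_pb β, k, inv_pb], fun k => k ▸ rfl⟩

/-- the pull back as a linear equivalence -/
def bd : BD K ≃ₗ[ℝ] BD K' :=
  { pbL φ with invFun := pb h.inv, left_inv := h.inv_pb, right_inv := h.pb_inv }

@[simp] theorem bd_apply (β : BD K) : h.bd β = pb φ β := rfl

theorem pb_δ (P : Pl K) : pb φ P.δ = (h.pl P).δ := by
  funext Q
  obtain ⟨Q, rfl⟩ := h.pl.surjective Q
  rw [pb_pl]
  by_cases k : Q = P
  · rw [k, Pl.δ_self, Pl.δ_self]
  · rw [Pl.δ_ne k, Pl.δ_ne fun e => k (h.pl.injective e)]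

theorem pb_le {β γ : BD K} : pb φ β ≤ pb φ γ ↔ β ≤ γ :=
  ⟨fun k => by simpa using pb_mono h.inv k, pb_mono φ⟩

theorem nonneg {β : BD K} : 0 ≤ pb φ β ↔ 0 ≤ β := by rw [← h.pb_le (β := 0), pb_zero]

theorem im_sur (s : Finset K') : im φ (im h.inv s) = s := by
  ext f
  simp only [Pb.mem_im]
  exact ⟨fun ⟨_, ⟨g, hg, e⟩, e'⟩ => by rw [← e', ← e, apply_inv]; exact hg,
    fun k => ⟨_, ⟨f, k, rfl⟩, h.apply_inv f⟩⟩

theorem inv_im (s : Finset K) : im h.inv (im φ s) = s := by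
  have := h.symm.im_sur s
  rwa [inv_inv] at this

theorem mz_pl (P : Pl K) (s : Finset K) : (h.pl P).mz (im φ s) = P.mz s := by
  rw [(h.lies P).mz, ord_pl, Pl.ord_t, one_mul]

theorem pl_comp {ψ : K' →+* K''} (h' : Semi ψ) (P : Pl K) : (h'.comp h).pl P = h'.pl (h.pl P) :=
  ((h'.comp h).lies_iff.1 ((h'.lies _).comp (h.lies P))).symm

omit h in
theorem pl_refl (P : Pl K) : (refl : Semi (RingHom.id K)).pl P = P :=
  (refl.lies_iff.1 (lies_id P)).symm

/-! ### linear systems, positivity -/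

variable {β γ Λ G : BD K}

theorem car : pb φ β ∈ Car K' ↔ β ∈ Car K :=
  ⟨fun k => by simpa using h.symm.ok.car k, h.ok.car⟩

theorem carZ : pb φ β ∈ CarZ K' ↔ β ∈ CarZ K :=
  ⟨fun k => by simpa using h.symm.ok.carZ k, h.ok.carZ⟩

theorem carQ : CarQ (pb φ β) ↔ CarQ β := ⟨fun k => by simpa using h.symm.ok.carQ k, h.ok.carQ⟩

theorem prn : pb φ β ∈ Prn K' ↔ β ∈ Prn K :=
  ⟨fun k => by simpa using h.symm.ok.prn k, h.ok.prn⟩

theorem sec {f : K} : Sec (pb φ β) (φ f) ↔ Sec β f :=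
  ⟨fun k => by simpa using h.symm.ok.sec k, h.ok.sec⟩

theorem rep : Rep (pb φ β) (pb φ G) ↔ Rep β G :=
  ⟨fun k => by simpa using h.symm.ok.rep k, h.ok.rep⟩

theorem eff : Eff (pb φ β) ↔ Eff β := ⟨fun k => by simpa using h.symm.ok.eff k, h.ok.eff⟩

theorem smp : Smp (pb φ β) ↔ Smp β := ⟨fun k => by simpa using h.symm.ok.smp k, h.ok.smp⟩

theorem nef : Nef (pb φ β) ↔ Nef β := ⟨fun k => by simpa using h.symm.ok.nef k, h.ok.nef⟩

theorem psef : Psef (pb φ β) ↔ Psef β := ⟨fun k => by simpa using h.symm.ok.psef k, h.ok.psef⟩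

theorem num : Num (pb φ β) ↔ Num β := ⟨fun k => by simpa using h.symm.ok.num k, h.ok.num⟩

theorem dsc : Dsc (pb φ Λ) (pb φ β) ↔ Dsc Λ β :=
  ⟨fun k => by simpa using h.symm.ok.dsc k, h.ok.dsc⟩

theorem ampOn : AmpOn (pb φ Λ) (pb φ β) ↔ AmpOn Λ β :=
  ⟨fun k => by simpa using h.symm.ok.ampOn k, h.ok.ampOn⟩

theorem big' (k : Big β) : Big (pb φ β) := fun s => by
  obtain ⟨ε, h1, h2⟩ := k (im h.inv s)
  refine ⟨ε, h1, ?_⟩
  have := h.ok.eff h2
  rwa [pb_sub, pb_smul, h.ok.pb_mx, im_sur] at this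

theorem big : Big (pb φ β) ↔ Big β := ⟨fun k => by simpa using h.symm.big' k, h.big'⟩

/-- sections correspond -/
def H0e (β : BD K) : H0 β ≃+ H0 (pb φ β) where
  toFun f := ⟨φ f, mem_H0.2 (h.sec.2 (mem_H0.1 f.2))⟩
  invFun f := ⟨h.inv f, mem_H0.2 (h.sec.1 (by rw [apply_inv]; exact mem_H0.1 f.2))⟩
  left_inv f := Subtype.ext (h.inv_apply _)
  right_inv f := Subtype.ext (h.apply_inv _)
  map_add' f g := Subtype.ext (map_add φ _ _)

theorem rank_H0 (β : BD K) : Module.rank ℂ (H0 (pb φ β)) = Module.rank ℂ (H0 β) :=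
  (rank_eq_of_equiv_equiv h.σ (h.H0e β) h.σ.bijective fun c f =>
    Subtype.ext (h.map_smul c f)).symm

theorem h0 (β : BD K) : h0 (pb φ β) = h0 β := congrArg Cardinal.toNat (h.rank_H0 β)

theorem finite_H0 (β : BD K) : Module.Finite ℂ (H0 (pb φ β)) ↔ Module.Finite ℂ (H0 β) := by
  rw [← Module.rank_lt_aleph0_iff, ← Module.rank_lt_aleph0_iff, h.rank_H0]

open Classical in
theorem im_pair (f : K) : im φ {1, f} = {1, φ f} := by
  rw [Pb.im_eq, Finset.image_insert, Finset.image_singleton, map_one]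

theorem fld (Λ : BD K) : fld (pb φ Λ) = h.sub (fld Λ) := by
  unfold P287D.fld
  rw [sub_adjoin]
  refine congrArg _ (Set.ext fun f => ?_)
  obtain ⟨f, rfl⟩ := h.sur f
  rw [φ.injective.mem_set_image, mem_setOf_eq, mem_setOf_eq, ← h.im_pair, ← h.ok.pb_mx]
  simp only [← pb_smul, ← pb_sub, h.eff]

theorem dim (Λ : BD K) : dim (pb φ Λ) = dim Λ := by
  unfold P287D.dim
  rw [h.fld, ← (h.semi_res₀ _).trdeg]

theorem cLe {P Q : Pl K} : CLe (pb φ Λ) (h.pl P) (h.pl Q) ↔ CLe Λ P Q := by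
  constructor
  · intro k G hG hQ
    simpa only [pb_pl] using k _ (h.ok.rep hG) (by rwa [pb_pl])
  · intro k G hG hQ
    obtain ⟨G, rfl⟩ := h.pb_sur G
    rw [pb_pl] at hQ ⊢
    exact k G (h.rep.1 hG) hQ

theorem meet {P Q : Pl K} : Meet (pb φ Λ) (h.pl P) (h.pl Q) ↔ Meet Λ P Q :=
  ⟨fun ⟨R, h1, h2⟩ => by
    obtain ⟨R, rfl⟩ := h.pl.surjective R
    exact ⟨R, h.cLe.1 h1, h.cLe.1 h2⟩, fun ⟨R, h1, h2⟩ => ⟨h.pl R, h.cLe.2 h1, h.cLe.2 h2⟩⟩

theorem map_prn : (Prn K).map (h.bd : BD K →ₗ[ℝ] BD K') = Prn K' := by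
  ext β
  obtain ⟨β, rfl⟩ := h.pb_sur β
  rw [h.prn]
  exact ⟨fun ⟨γ, k, e⟩ => h.pb_inj.1 e ▸ k, fun k => ⟨β, k, rfl⟩⟩

/-- the isomorphism of the class groups -/
def cl : (BD K ⧸ Prn K) ≃ₗ[ℝ] (BD K' ⧸ Prn K') := Submodule.Quotient.equiv _ _ h.bd h.map_prn

theorem cl_mk (β : BD K) : h.cl ((Prn K).mkQ β) = (Prn K').mkQ (pb φ β) := rfl

theorem pic (Λ : BD K) :
    Pic (pb φ Λ) = (Pic Λ).map (h.cl : (BD K ⧸ Prn K) →ₗ[ℝ] (BD K' ⧸ Prn K')) := by
  unfold Pic
  rw [Submodule.map_span, image_image]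
  refine congrArg _ (Set.ext fun x => ⟨?_, ?_⟩)
  · rintro ⟨β, k, rfl⟩
    obtain ⟨β, rfl⟩ := h.pb_sur β
    exact ⟨β, h.dsc.1 k, rfl⟩
  · rintro ⟨β, k, rfl⟩
    exact ⟨_, h.dsc.2 k, rfl⟩

theorem rho (Λ : BD K) : rho (pb φ Λ) = rho Λ := by
  unfold P287D.rho
  rw [h.pic, LinearEquiv.finrank_map_eq]

end Semi

/-- the Galois group of a geometric generic fibre preserves the constants -/
theorem GF.cst_gal {L : IntermediateField ℂ K} {φ : K →+* K'} (h : GF L φ) {σ : K' ≃+* K'}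
    (hσ : σ ∈ Gal φ) (c : ℂ) : σ (algebraMap ℂ K' c) ∈ range (algebraMap ℂ K') := by
  obtain ⟨p, p0, hp⟩ := h.alg c
  have k : p.eval₂ (φ.comp (algebraMap L K)) (σ (algebraMap ℂ K' c)) = 0 := by
    have := congrArg (σ : K' →+* K') hp
    rwa [Polynomial.hom_eval₂, map_zero,
      show (σ : K' →+* K').comp (φ.comp (algebraMap L K)) = φ.comp (algebraMap L K) from
        RingHom.ext fun a => hσ _] at this
  have l : p.map (φ.comp (algebraMap L K)) ∈ Polynomial.lifts (algebraMap ℂ K') := by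
    rw [Polynomial.lifts_iff_coeff_lifts]
    intro n
    rw [Polynomial.coeff_map]
    exact h.cst _ (p.coeff n).2
  obtain ⟨q, hq⟩ := (Polynomial.mem_lifts _).1 l
  have q0 : q ≠ 0 := by
    rintro rfl
    rw [Polynomial.map_zero, eq_comm, Polynomial.map_eq_zero] at hq
    exact p0 hq
  have a : IsAlgebraic ℂ (σ (algebraMap ℂ K' c)) :=
    ⟨q, q0, by rw [Polynomial.aeval_def, Polynomial.eval₂_eq_eval_map, hq,
      ← Polynomial.eval₂_eq_eval_map, k]⟩
  exact minpoly.mem_range_of_degree_eq_one ℂ _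
    (IsAlgClosed.degree_eq_one_of_irreducible ℂ (minpoly.irreducible a.isIntegral))

theorem GF.semi {L : IntermediateField ℂ K} {φ : K →+* K'} (h : GF L φ) {σ : K' ≃+* K'}
    (hσ : σ ∈ Gal φ) : Semi (σ : K' →+* K') :=
  Semi.of_equiv σ (h.cst_gal hσ) (h.cst_gal ((Gal φ).inv_mem hσ))

end Vale.Agent.P287D
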