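import Vale.Agent.P287D.Iso.Bas
import Vale.Agent.P287D.Cb.Fr

/-!
# P287D: isomorphisms of function fields, the divisor of a form
-/

set_option linter.all false

open Set
open Vale.Agent.P297 (Place)
open Vale.Agent.P285N.Brep (jac Fr)

noncomputable section

namespace Vale.Agent.P287D.Semi

variable {K K' : Type} [Field K] [Algebra ℂ K] [Field K'] [Algebra ℂ K'] {φ : K →+* K'}
  (h : Semi φ) {n : ℕ}
include h

theorem σ_symm (c : ℂ) : h.σ (h.symm.σ c) = c := (algebraMap ℂ K').injective (by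
  rw [← h.map_cst, ← h.symm.map_cst, apply_inv])

/-- the conjugate derivation -/
def der (D : Derivation ℂ K K) : Derivation ℂ K' K' :=
  Derivation.mk'
    { toFun f := φ (D (h.inv f))
      map_add' f g := by rw [map_add, map_add, map_add]
      map_smul' c f := by
        rw [h.symm.map_smul, D.map_smul, h.map_smul, h.σ_symm, RingHom.id_apply] }
    fun f g => by
      change φ (D (h.inv (f * g))) = f • φ (D (h.inv g)) + g • φ (D (h.inv f))
      rw [map_mul, D.leibniz, smul_eq_mul, smul_eq_mul, map_add, map_mul, map_mul, apply_inv,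
        apply_inv, smul_eq_mul, smul_eq_mul]

@[simp] theorem der_apply (D : Derivation ℂ K K) (f : K) : h.der D (φ f) = φ (D f) := by
  change φ (D (h.inv (φ f))) = _
  rw [inv_apply]

theorem jac_der (D : Fin n → Derivation ℂ K K) (y : Fin n → K) :
    jac (fun i => h.der (D i)) (fun j => φ (y j)) = φ (jac D y) := by
  unfold jac
  rw [RingHom.map_det]
  refine congrArg _ (Matrix.ext fun i j => ?_)
  simp

theorem fr {y : Fin n → K} {D : Fin n → Derivation ℂ K K} (k : Fr y D) :
    Fr (fun j => φ (y j)) fun i => h.der (D i) where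
  dual i j := by rw [der_apply, k.dual, apply_ite φ, map_one, map_zero]
  fin := by
    have := k.fin
    have := h.finite_sub (IntermediateField.adjoin ℂ (range y))
    rwa [sub_adjoin, ← range_comp] at this

theorem ad {P : Pl K} {y : Fin n → K} {D : Fin n → Derivation ℂ K K} (k : Ad P y D) :
    Ad (h.pl P) (fun j => φ (y j)) fun i => h.der (D i) where
  fr := h.fr k.fr
  mem j := h.mem_pl.2 (k.mem j)
  pre j f hf := by
    obtain ⟨f, rfl⟩ := h.sur f
    rw [der_apply, mem_pl]
    exact k.pre j f (h.mem_pl.1 hf)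

/-- the divisor of a form is transported -/
theorem pb_kap (y : Fin n → K) : pb φ (kap y) = kap fun j => φ (y j) := by
  funext P
  obtain ⟨P, rfl⟩ := h.pl.surjective P
  rw [pb_pl]
  by_cases k : ∃ q : (Fin n → K) × (Fin n → Derivation ℂ K K), Ad P q.1 q.2
  · obtain ⟨q, hq⟩ := k
    rw [Cb.kap_eq hq, Cb.kap_eq (h.ad hq), jac_der, ord_pl]
  · have k' : ¬ ∃ q : (Fin n → K') × (Fin n → Derivation ℂ K' K'), Ad (h.pl P) q.1 q.2 :=
      fun ⟨q, hq⟩ => k ⟨(_, _), by simpa only [← h.pl_symm, Equiv.symm_apply_apply] using h.symm.ad hq⟩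
    rw [kap, kap, dif_neg k, dif_neg k']

theorem cn_of (hA : FF K' n → ∀ P : Pl K', ∃ (t : Fin n → K') (D : _), Ad P t D) :
    ∃ f : K', f ≠ 0 ∧ pb φ (cn K n) = cn K' n + dv f := by
  by_cases k : ∃ (y : Fin n → K) (D : Fin n → Derivation ℂ K K), Fr y D
  · have k' : ∃ (y : Fin n → K') (D : Fin n → Derivation ℂ K' K'), Fr y D :=
      k.elim fun _ k => k.elim fun _ k => ⟨_, _, h.fr k⟩
    obtain ⟨D, hD⟩ := k.choose_spec
    obtain ⟨E, hE⟩ := k'.choose_spec
    refine ⟨jac E fun j => φ (k.choose j), Cb.jac_ne (h.fr hD) hE, ?_⟩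
    rw [cn, cn, dif_pos k, dif_pos k', h.pb_kap]
    funext P
    obtain ⟨t, F, hF⟩ := hA (Cb.ff_of hE) P
    rw [Pi.add_apply, Cb.kap_eq hF, Cb.kap_eq hF, Cb.jac_chain hE F,
      P297Z.Pl.ord_mul _ (Cb.jac_ne hE hF.fr) (Cb.jac_ne (h.fr hD) hE), dv_apply, Int.cast_add]
  · have k' : ¬ ∃ (y : Fin n → K') (D : Fin n → Derivation ℂ K' K'), Fr y D :=
      fun ⟨_, _, e⟩ => k ⟨_, _, h.symm.fr e⟩
    exact ⟨1, one_ne_zero, by rw [cn, cn, dif_neg k, dif_neg k', pb_zero, dv_one, add_zero]⟩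

end Vale.Agent.P287D.Semi
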