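import Vale.Agent.P287D.Iso.Can
import Vale.Agent.P287D.In.Bas

/-!
# P287D: isomorphisms of function fields, restriction and intersection numbers
-/

set_option linter.all false

open Set
open Function (update support comp_apply update_self)

noncomputable section

namespace Vale.Agent.P287D

variable {K K' : Type} [Field K] [Algebra ℂ K] [Field K'] [Algebra ℂ K'] {n : ℕ}

namespace Iso

theorem I_congr (r : In.Row n K) {a b : Fin n → BD K} (ha : ∀ i, a i ∈ Car K)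
    (hab : ∀ i, b i - a i ∈ Prn K) : I n K b = I n K a := by
  have hb : ∀ i, b i ∈ Car K := fun i => by
    simpa using add_mem (Prn_le_Car (hab i)) (ha i)
  refine In.MlOn.chain (r := (· = ·)) (fun _ => rfl) (fun _ _ _ => Eq.trans) b a fun c i hc => ?_
  have k : ∀ j, c j ∈ Car K := fun j => (hc j).elim (fun e => e ▸ hb j) fun e => e ▸ ha j
  rw [← sub_eq_zero, ← r.ml.sub c i _ _ k (hb i) (ha i)]
  exact r.prn _ i (In.upd_mem k i (sub_mem (hb i) (ha i))) (by rw [update_self]; exact hab i)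

/-- the first entry only matters up to principal b-divisors -/
theorem cons_add_prn (H : In.Hy) (hK : FF K (n + 1)) (Z : BD K) {W : BD K} (hW : W ∈ Prn K)
    {b : Fin n → BD K} (hb : ∀ i, b i ∈ Car K) :
    I (n + 1) K (Fin.cons (Z + W) b) = I (n + 1) K (Fin.cons Z b) := by
  have f := H.fin' hK (H.rows hK) (H.isb n K hK W (Prn_le_Car hW)) hb
  have z := H.cons_prn' hK (H.rows hK) hW hb
  simp only [In.I_cons, Pi.add_apply, add_mul] at z ⊢
  by_cases k : (support fun P => Z P * In.cf P b).Finite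
  · rw [finsum_add_distrib k f, z, add_zero]
  · rw [finsum_of_infinite_support k, finsum_of_infinite_support fun e => k ?_]
    refine (e.union f).subset fun P hP => by_contra fun c => hP ?_
    simp only [mem_union, Function.mem_support, not_or, not_not] at c
    simpa [c.2] using c.1

theorem res_of_not {P : Pl K} {β : BD K} (k : β ∉ Car K) : res P β = 0 :=
  dif_neg fun e => k (mem_Car.2 e)

theorem nz_rs (P : Pl K) {s : Finset K} (k : Nz s) : Nz (P.rs s) := by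
  classical
  obtain ⟨f, a, f0, e⟩ := P.exists_mz k
  refine ⟨P.rd (f * P.t ^ P.mz s), Finset.mem_image.2 ⟨f, a, rfl⟩, fun z => ?_⟩
  rw [Cb.rd_eq_zero (P.mem_ring_mz (Submodule.subset_span a)), Cb.mx_iff, P.ord_mul_t f0] at z
  rcases z with z | z
  · exact mul_ne_zero f0 (zpow_ne_zero _ P.t_ne) z
  · omega

theorem fld_congr {Λ Λ' : BD K} (e : Λ' - Λ ∈ Prn K) : fld Λ' = fld Λ := by
  have : ∀ x : BD K, Eff (Λ' - x) ↔ Eff (Λ - x) := fun x =>
    ⟨fun k => k.congr (by simpa using neg_mem e), fun k => k.congr (by simpa using e)⟩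
  simp only [fld, this]

theorem dim_congr {Λ Λ' : BD K} (e : Λ' - Λ ∈ Prn K) : dim Λ' = dim Λ := by
  rw [dim, dim, fld_congr e]

theorem rd_zpow {P : Pl K} {u : K} (u0 : u ≠ 0) (k : P.ord u = 0) (m : ℤ) :
    P.rd (u ^ m) = P.rd u ^ m := by
  have a := Cb.mem_ord k.ge
  have b := Cb.inv_mem_ord k
  have p : ∀ (v : K), v ∈ P.ring → ∀ j : ℕ, P.rd (v ^ j) = P.rd v ^ j := fun v hv j => by
    induction j with
    | zero => simpa using Cb.rd_const (P := P) 1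
    | succ j ih => rw [pow_succ, Cb.rd_mul (pow_mem hv j) hv, ih, pow_succ]
  have i : P.rd u⁻¹ = (P.rd u)⁻¹ := eq_inv_of_mul_eq_one_left (by
    rw [← Cb.rd_mul b a, inv_mul_cancel₀ u0]
    simpa using Cb.rd_const (P := P) 1)
  obtain ⟨j, rfl | rfl⟩ := Int.eq_nat_or_neg m
  · rw [zpow_natCast, zpow_natCast, p u a]
  · rw [zpow_neg, zpow_neg, zpow_natCast, zpow_natCast, ← inv_pow, p _ b, i, inv_pow]

end Iso

namespace Semi

variable {φ : K →+* K'} (h : Semi φ)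
include h

/-- the ratio of the uniformizers -/
def un (P : Pl K) : (h.pl P).κ := (h.pl P).rd ((h.pl P).t / φ P.t)

theorem ord_un (P : Pl K) : (h.pl P).ord ((h.pl P).t / φ P.t) = 0 := by
  rw [P297Z.Pl.ord_div _ (Pl.t_ne _) ((map_ne_zero φ).2 P.t_ne), ord_pl, Pl.ord_t, Pl.ord_t,
    sub_self]

theorem un_ne (P : Pl K) : h.un P ≠ 0 := fun z => by
  rw [un, Cb.rd_eq_zero (Cb.mem_ord (h.ord_un P).ge), Cb.mx_iff, ord_un] at z
  rcases z with z | z
  · exact div_ne_zero (Pl.t_ne _) ((map_ne_zero φ).2 P.t_ne) z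
  · omega

theorem mx_rs (P : Pl K) (s : Finset K) : mx ((h.pl P).rs (im φ s)) =
    pb (h.κ P) (mx (P.rs s)) - (P.mz s : ℝ) • dv (h.un P) := by
  classical
  have t0 := (map_ne_zero φ).2 P.t_ne
  have e : (h.pl P).rs (im φ s) = (im (h.κ P) (P.rs s)).image (· * h.un P ^ P.mz s) := by
    rw [Pl.rs, Pl.rs, Pb.im_eq, Pb.im_eq, Finset.image_image, Finset.image_image,
      Finset.image_image]
    refine Finset.image_congr fun f hf => ?_
    simp only [comp_apply]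
    rw [← Pb.im_eq, mz_pl, κ_rd, un, ← Iso.rd_zpow (div_ne_zero (Pl.t_ne _) t0) (h.ord_un P),
      ← Cb.rd_mul (h.mem_pl.2 (P.mem_ring_mz (Submodule.subset_span hf)))
        (Cb.mem_ord (by rw [P297Z.Pl.ord_zpow, ord_un, mul_zero])), map_mul, map_zpow₀, mul_assoc,
      ← mul_zpow, mul_div_cancel₀ _ t0]
  rw [(h.κ_semi P).ok.pb_mx, ← dv_zpow, e]
  by_cases k : Nz s
  · obtain ⟨f, a, b⟩ := Iso.nz_rs P k
    exact mx_image_mul ⟨_, Pb.mem_im.2 ⟨f, a, rfl⟩, (map_ne_zero _).2 b⟩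
      (zpow_ne_zero _ (h.un_ne P))
  · simp [P.mz_of_not k]

section H

variable (H : In.Hy)
include H

/-- **restriction commutes with isomorphisms** -/
theorem res_pl (hK : FF K (n + 1)) (P : Pl K) {β : BD K} (k : β ∈ Car K) :
    res (h.pl P) (pb φ β) = pb (h.κ P) (res P β) - β P • dv (h.un P) := by
  have hK' := h.ff hK
  refine Car.ind (p := fun β => res (h.pl P) (pb φ β) = pb (h.κ P) (res P β) - β P • dv (h.un P))
    k (fun s _ => ?_) (fun a b x y u v => ?_) fun c a x u => ?_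
  · rw [h.ok.pb_mx, H.sys n K' hK', H.sys n K hK, mx_rs, mx_apply]
  · rw [pb_add, H.add n K' hK' _ _ (h.ok.car x) _ (h.ok.car y), H.add n K hK _ _ x _ y, u, v,
      pb_add, Pi.add_apply, add_smul]
    abel
  · rw [pb_smul, H.smul n K' hK' _ _ _ (h.ok.car x), H.smul n K hK _ _ _ x, u, pb_smul, smul_sub,
      Pi.smul_apply, smul_eq_mul, mul_smul]

theorem res_prn (hK : FF K (n + 1)) (P : Pl K) (β : BD K) :
    res (h.pl P) (pb φ β) - pb (h.κ P) (res P β) ∈ Prn (h.pl P).κ := by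
  by_cases k : β ∈ Car K
  · rw [h.res_pl H hK P k, sub_sub_cancel_left]
    exact neg_mem (Submodule.smul_mem _ _ (dv_mem_Prn _))
  · rw [Iso.res_of_not k, Iso.res_of_not fun e => k (h.car.1 e), pb_zero, sub_zero]
    exact zero_mem _

omit h in
theorem I_aux (n : ℕ) : ∀ (K K' : Type) [Field K] [Algebra ℂ K] [Field K'] [Algebra ℂ K']
    (φ : K →+* K') (h : Semi φ), FF K n → ∀ β : Fin n → BD K,
      I n K' (fun i => pb φ (β i)) = I n K β := by
  induction n with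
  | zero => exact fun _ _ _ _ _ _ _ _ _ _ => rfl
  | succ n ih =>
    intro K K' _ _ _ _ φ h hK β
    rw [In.I_succ, In.I_succ, ← finsum_comp_equiv h.pl]
    refine finsum_congr fun P => ?_
    rw [h.pb_pl, In.cf, In.cf, ← ih _ _ _ (h.κ_semi P) (H.rsd n K hK P)]
    exact congrArg _ (Iso.I_congr (H.rows (h.ff hK) _)
      (fun i => (h.κ_semi P).ok.car (In.res_car _ _)) fun i => h.res_prn H hK P _)

/-- **intersection numbers are invariant** -/
theorem I_pb (hK : FF K n) (β : Fin n → BD K) : I n K' (fun i => pb φ (β i)) = I n K β :=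
  I_aux H n K K' φ h hK β

theorem vol (hK : FF K n) (β : BD K) : vol n (pb φ β) = vol n β := h.I_pb H hK fun _ => β

theorem I1 (hK : FF K 1) (a : BD K) : I1 (pb φ a) = I1 a :=
  Eq.trans (congrArg (I 1 K') (funext fun i => by fin_cases i; rfl)) (h.I_pb H hK ![a])

theorem I2 (hK : FF K 2) (a b : BD K) : I2 (pb φ a) (pb φ b) = I2 a b :=
  Eq.trans (congrArg (I 2 K') (funext fun i => by fin_cases i <;> rfl)) (h.I_pb H hK ![a, b])

theorem I3 (hK : FF K 3) (a b c : BD K) : I3 (pb φ a) (pb φ b) (pb φ c) = I3 a b c :=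
  Eq.trans (congrArg (I 3 K') (funext fun i => by fin_cases i <;> rfl)) (h.I_pb H hK ![a, b, c])

theorem I4 (hK : FF K 4) (a b c d : BD K) :
    I4 (pb φ a) (pb φ b) (pb φ c) (pb φ d) = I4 a b c d :=
  Eq.trans (congrArg (I 4 K') (funext fun i => by fin_cases i <;> rfl)) (h.I_pb H hK ![a, b, c, d])

variable (hK : FF K (n + 1)) {Λ Λ' β Z Γ : BD K} {P : Pl K}
include hK

theorem cf_pl (P : Pl K) (b : Fin n → BD K) :
    In.cf (h.pl P) (fun i => pb φ (b i)) = In.cf P b := by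
  rw [← In.I_δ, ← In.I_δ, ← h.I_pb H hK, ← h.pb_δ]
  exact congrArg _ (funext fun i => Fin.cases rfl (fun _ => rfl) i)

theorem on_pl : On n (pb φ Λ) (h.pl P) ↔ On n Λ P :=
  iff_of_eq (congrArg (0 < ·) (h.cf_pl H hK P fun _ => Λ))

theorem cd (Λ : BD K) (P : Pl K) : cd (pb φ Λ) (h.pl P) = cd Λ P := by
  rw [P287D.cd, P287D.cd, Iso.dim_congr (h.res_prn H hK P Λ), (h.κ_semi P).dim]

theorem hull : Hull n (pb φ Λ) (pb φ Z) (pb φ β) ↔ Hull n Λ Z β := by
  simp only [Hull, h.dsc, h.pl.surjective.forall, h.on_pl H hK, pb_pl]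

theorem qf : QF n (pb φ Λ) ↔ QF n Λ := by
  simp only [QF, h.pl.surjective.forall, h.bd.surjective.exists, h.on_pl H hK, bd_apply, ← h.pb_δ,
    h.carQ, h.hull H hK]

theorem isB : IsB n (pb φ Z) ↔ IsB n Z := by
  have e : ∀ s : Finset K, {P | On n (mx (im φ s)) P ∧ pb φ Z P ≠ 0} =
      h.pl '' {P | On n (mx s) P ∧ Z P ≠ 0} := fun s => Set.ext fun P => by
    obtain ⟨P, rfl⟩ := h.pl.surjective P
    rw [h.pl.injective.mem_set_image, mem_setOf_eq, mem_setOf_eq, ← h.ok.pb_mx, h.on_pl H hK, pb_pl]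
  constructor
  · intro k s hs
    have := k (im φ s) (h.ok.pb_mx s ▸ h.big.2 hs)
    rw [e] at this
    exact this.of_finite_image h.pl.injective.injOn
  · intro k s hs
    rw [← h.im_sur s] at hs ⊢
    rw [e]
    exact (k _ (h.big.1 (h.ok.pb_mx _ ▸ hs))).image _

theorem bdy : Bdy n (pb φ Λ) (h.tw (n + 1) Γ) ↔ Bdy n Λ Γ := by
  simp only [Bdy, h.pl.surjective.forall, h.on_pl H hK, dsc_pl]

omit H hK in
theorem dsc_tw_iff {m : ℕ} : Dsc (pb φ Λ) (h.tw m Γ) ↔ Dsc Λ Γ := by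
  have a := h.tw_prn m Γ
  have b := h.prn_tw m Γ
  rw [← h.dsc]
  refine exists_congr fun ε => and_congr_right fun _ => and_congr
    ⟨fun k => k.congr ?_, fun k => k.congr ?_⟩ ⟨fun k => k.congr ?_, fun k => k.congr ?_⟩
  · simpa [← smul_sub] using Submodule.smul_mem _ ε b
  · simpa [← smul_sub] using Submodule.smul_mem _ ε a
  · simpa [← smul_sub] using Submodule.smul_mem _ ε a
  · simpa [← smul_sub] using Submodule.smul_mem _ ε b

omit H hK in
theorem ampOn_neg_tw {m : ℕ} : AmpOn (pb φ Λ) (-h.tw m Γ) ↔ AmpOn Λ (-Γ) := by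
  have n1 : ∀ {L : Type} [Field L] [Algebra ℂ L] (a b : BD L), Dsc a (-b) ↔ Dsc a b :=
    fun a b => exists_congr fun ε => and_congr_right fun _ => by
      rw [smul_neg, ← sub_eq_add_neg, sub_neg_eq_add, and_comm]
  rw [← h.ampOn, AmpOn, AmpOn, n1, h.dsc_tw_iff, h.dsc, n1]
  refine and_congr_right fun _ => exists_congr fun ε => and_congr_right fun _ =>
    ⟨fun k => k.congr ?_, fun k => k.congr ?_⟩
  · simpa using h.neg_tw' m Γ
  · simpa using h.neg_tw m Γ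

theorem hull_tw {m : ℕ} : Hull n (pb φ Λ) (h.tw m Z) (h.tw m β) ↔ Hull n Λ Z β := by
  simp only [Hull, h.dsc_tw_iff, h.pl.surjective.forall, h.on_pl H hK]
  simp only [tw, Pi.sub_apply, pb_pl, sub_left_inj]

theorem term : Term n (pb φ Λ) (h.tw (n + 1) Γ) ↔ Term n Λ Γ := by
  have a : Hull n (pb φ Λ) (cn K' (n + 1)) (h.tw (n + 1) Γ) ↔ Hull n Λ (cn K (n + 1)) Γ := by
    rw [← h.tw_cn, h.hull_tw H hK]
  have b : (∀ P, ¬ On n (pb φ Λ) P → 0 < P287D.dsc (n + 1) (h.tw (n + 1) Γ) P) ↔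
      ∀ P, ¬ On n Λ P → 0 < P287D.dsc (n + 1) Γ P := by
    simp only [h.pl.surjective.forall, h.on_pl H hK, dsc_pl]
  exact ⟨fun k => ⟨h.smp.1 k.smp, h.big.1 k.big, a.1 k.hull, b.1 k.pos⟩,
    fun k => ⟨h.smp.2 k.smp, h.big.2 k.big, a.2 k.hull, b.2 k.pos⟩⟩

theorem ft' (k : FT K n) : FT K' n := by
  obtain ⟨Λ, Γ, a, b, c, d, e, f, g⟩ := k
  exact ⟨pb φ Λ, h.tw (n + 1) Γ, h.smp.2 a, h.big.2 b, h.tw_car.2 c, (h.bdy H hK).2 d, h.klt.2 e,
    h.nef_neg_tw.2 f, h.big_neg_tw.2 g⟩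

theorem ft : FT K' n ↔ FT K n := ⟨h.symm.ft' H (h.ff hK), h.ft' H hK⟩

theorem fano1' (k : Fano1 n Λ) : Fano1 n (pb φ Λ) := by
  obtain ⟨⟨Γ, a, b⟩, c, d⟩ := k
  exact ⟨⟨_, (h.term H hK).2 a, h.ampOn_neg_tw.2 b⟩, (h.qf H hK).2 c, (h.rho Λ).trans d⟩

theorem fano1 : Fano1 n (pb φ Λ) ↔ Fano1 n Λ :=
  ⟨fun k => by simpa using h.symm.fano1' H (h.ff hK) k, h.fano1' H hK⟩

omit hK in
theorem isS {d : ℕ} {A : BD K} {f : K} (k : IsS d K A f) : IsS d K' (pb φ A) (h.cf 2 * φ f) := by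
  have f0 := (map_ne_zero φ).2 k.ne
  have e : cn K' 2 + dv (h.cf 2 * φ f) = pb φ (cn K 2 + dv f) := by
    rw [pb_add, h.pb_cn, h.ok.pb_dv, dv_mul (h.cf_ne 2) f0, add_assoc]
  refine ⟨h.ff k.ff, h.carZ.2 k.car, h.smp.2 k.smp, (h.I2 H k.ff A A).symm ▸ k.deg,
    mul_ne_zero (h.cf_ne 2) f0, ?_, ?_, ?_, ?_, fun L₀ hL => ?_⟩
  · simpa only [e, h.pl.surjective.forall, h.on_pl H k.ff, pb_pl] using k.on
  · simpa only [e, h.pl.surjective.forall, h.on_pl H k.ff, pb_pl] using k.exc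
  · intro P hP
    obtain ⟨P, rfl⟩ := h.pl.surjective P
    obtain ⟨m, β, a, b, c, d⟩ := k.crv P ((h.on_pl H k.ff).1 hP)
    refine ⟨m, pb φ β, a, h.carZ.2 b, h.pb_δ P ▸ (h.hull H k.ff).2 c, fun γ hγ => ?_⟩
    obtain ⟨γ, rfl⟩ := h.pb_sur γ
    rw [h.I2 H k.ff, h.I2 H k.ff, d γ (h.car.1 hγ)]
  · intro Λ hΛ
    obtain ⟨Λ, rfl⟩ := h.pb_sur Λ
    have c : P287D.I2 (cn K' 2) (pb φ Λ) = P287D.I2 (cn K 2) Λ := by
      rw [← h.I2 H k.ff, h.pb_cn]
      exact (Iso.cons_add_prn H (h.ff k.ff) _ (dv_mem_Prn _) (b := ![pb φ Λ])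
        fun i => by fin_cases i; exact hΛ.car).symm
    rw [c, h.I2 H k.ff, h.I2 H k.ff, h.I2 H k.ff]
    exact k.key Λ (h.nef.1 hΛ)
  · rw [← (h.symm.semi_res₀ L₀).pg]
    exact k.inv _ ((h.symm.finrank_sub L₀).trans hL)

end H

/-! ### isomorphisms over `ℂ` -/

section lin

variable (l : ∀ c, φ (algebraMap ℂ K c) = algebraMap ℂ K' c)
include l

/-- the isomorphism over `ℂ` -/
def alg : K ≃ₐ[ℂ] K' := AlgEquiv.ofRingEquiv (f := h.e) l

@[simp] theorem alg_apply (f : K) : h.alg l f = φ f := rfl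

theorem σ_id (c : ℂ) : h.σ c = c := (algebraMap ℂ K').injective ((h.map_cst c).symm.trans (l c))

theorem lin_inv (c : ℂ) : h.inv (algebraMap ℂ K' c) = algebraMap ℂ K c := by
  rw [← l, inv_apply]

theorem lin_κ (P : Pl K) (c : ℂ) : h.κ P (algebraMap ℂ _ c) = algebraMap ℂ _ c := by
  rw [κ_cst, h.σ_id l]

theorem lin_res₀ (L : IntermediateField ℂ K) (c : ℂ) :
    h.res₀ L (algebraMap ℂ _ c) = algebraMap ℂ _ c := Subtype.ext (l c)

variable {S : Cls} {d : ℕ} (hS : SCl d S)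
include hS

theorem cls : S K' ↔ S K := ⟨hS.iso _ _ (h.alg l).symm, hS.iso _ _ (h.alg l)⟩

theorem sDiv' (k : SDiv S K) : SDiv S K' :=
  let ⟨L, a, b⟩ := k
  ⟨h.sub L, ((h.semi_res₀ L).cls (h.lin_res₀ l L) hS).2 a, h.ruled.2 b⟩

theorem sDiv : SDiv S K' ↔ SDiv S K := ⟨h.symm.sDiv' (h.lin_inv l) hS, h.sDiv' l hS⟩

theorem sDiv_pl (P : Pl K) : SDiv S (h.pl P).κ ↔ SDiv S P.κ :=
  (h.κ_semi P).sDiv (h.lin_κ l P) hS

theorem cnt (H : In.Hy) (hK : FF K 4) (Λ Λ' : BD K) :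
    cnt S (pb φ Λ) (pb φ Λ') = cnt S Λ Λ' := by
  rw [P287D.cnt, P287D.cnt, ← ncard_image_of_injective _ h.pl.injective]
  refine congrArg _ (Set.ext fun P => ?_)
  obtain ⟨P, rfl⟩ := h.pl.surjective P
  rw [h.pl.injective.mem_set_image, mem_setOf_eq, mem_setOf_eq, h.on_pl H hK, h.on_pl H hK,
    h.sDiv_pl l hS]

end lin

end Semi

theorem Iso.semi_of (σ : K ≃+* K')
    (e : σ '' range (algebraMap ℂ K) = range (algebraMap ℂ K')) : Semi (σ : K →+* K') :=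
  ⟨σ.surjective, fun c => e ▸ ⟨_, ⟨c, rfl⟩, rfl⟩, fun c => by
    obtain ⟨_, ⟨a, rfl⟩, b⟩ := e.ge ⟨c, rfl⟩
    exact ⟨a, b⟩⟩

/-- **ISO** -/
theorem iso_of (H : In.Hy) : ISO := fun n K K' _ _ _ _ σ hK e => by
  have h := Iso.semi_of σ e
  refine ⟨h.ff hK, fun P => ⟨h.pl.symm P, h.lies_iff.2 (h.pl.apply_symm_apply P).symm,
    fun Q k => ?_⟩, fun Q => ⟨h.pl Q, h.lies Q, fun P k => h.lies_iff.1 k⟩,
    fun β _ => h.I_pb H hK β, h.h0, h.cf n, ?_⟩
  · rw [h.lies_iff.1 k, Equiv.symm_apply_apply]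
  · rw [h.pb_cn, add_sub_cancel_left]

end Vale.Agent.P287D
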