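import Vale.Agent.P287D.Iso.Kap
import Vale.Agent.P287D.Cb.Ad
import Vale.Agent.P287D.Va.Cone

/-!
# P287D: isomorphisms of function fields, the canonical b-divisor
-/

set_option linter.all false

open Set

noncomputable section

namespace Vale.Agent.P287D.Semi

variable {K K' : Type} [Field K] [Algebra ℂ K] [Field K'] [Algebra ℂ K'] {φ : K →+* K'}
  (h : Semi φ) {n : ℕ}
include h

theorem exists_cn (n : ℕ) : ∃ f : K', f ≠ 0 ∧ pb φ (cn K n) = cn K' n + dv f :=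
  h.cn_of Cb.exists_ad

/-- the ratio of the two chosen forms -/
def cf (n : ℕ) : K' := (h.exists_cn n).choose

theorem cf_ne (n : ℕ) : h.cf n ≠ 0 := (h.exists_cn n).choose_spec.1

/-- **the canonical b-divisor is transported up to a principal divisor** -/
theorem pb_cn (n : ℕ) : pb φ (cn K n) = cn K' n + dv (h.cf n) := (h.exists_cn n).choose_spec.2

theorem cn_prn (n : ℕ) : pb φ (cn K n) - cn K' n ∈ Prn K' := by
  rw [h.pb_cn, add_sub_cancel_left]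
  exact dv_mem_Prn _

theorem pg (n : ℕ) : pg K' n = pg K n := by
  rw [P287D.pg, P287D.pg, ← h.h0, h.pb_cn, h0_add_dv _ (h.cf_ne n)]

theorem h0_cn (n : ℕ) (β : BD K) : P287D.h0 (cn K' n + pb φ β) = P287D.h0 (cn K n + β) := by
  rw [← h.h0, pb_add, h.pb_cn, add_right_comm, h0_add_dv _ (h.cf_ne n)]

/-- the transported pair -/
def tw (n : ℕ) (Γ : BD K) : BD K' := pb φ Γ - dv (h.cf n)

theorem tw_prn (n : ℕ) (Γ : BD K) : h.tw n Γ - pb φ Γ ∈ Prn K' := by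
  rw [tw, sub_sub_cancel_left]
  exact neg_mem (dv_mem_Prn _)

theorem prn_tw (n : ℕ) (Γ : BD K) : pb φ Γ - h.tw n Γ ∈ Prn K' := by
  rw [tw, sub_sub_cancel]
  exact dv_mem_Prn _

theorem tw_sur (n : ℕ) (Γ : BD K') : ∃ Γ₀, h.tw n Γ₀ = Γ :=
  ⟨pb h.inv (Γ + dv (h.cf n)), by rw [tw, pb_inv, add_sub_cancel_right]⟩

theorem tw_add (n : ℕ) (Γ β : BD K) : h.tw n (Γ + β) = h.tw n Γ + pb φ β := by
  rw [tw, tw, pb_add]; abel

theorem tw_cn (n : ℕ) : h.tw n (cn K n) = cn K' n := by rw [tw, h.pb_cn, add_sub_cancel_right]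

theorem dsc_tw (n : ℕ) (Γ : BD K) : P287D.dsc n (h.tw n Γ) = pb φ (P287D.dsc n Γ) := by
  rw [P287D.dsc, P287D.dsc, pb_sub, h.pb_cn, tw]; abel

@[simp] theorem dsc_pl (n : ℕ) (Γ : BD K) (P : Pl K) :
    P287D.dsc n (h.tw n Γ) (h.pl P) = P287D.dsc n Γ P := by rw [dsc_tw, pb_pl]

variable {Γ : BD K} {m : ℕ}

theorem tw_car : h.tw m Γ ∈ Car K' ↔ Γ ∈ Car K := by
  rw [← h.car, tw, Submodule.sub_mem_iff_left _ (dv_mem_Car _)]

theorem tw_carZ : h.tw m Γ ∈ CarZ K' ↔ Γ ∈ CarZ K := by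
  rw [← h.carZ, tw]
  exact ⟨fun k => by simpa using add_mem k (dv_mem_CarZ (h.cf m)),
    fun k => sub_mem k (dv_mem_CarZ _)⟩

theorem tw_carQ : CarQ (h.tw m Γ) ↔ CarQ Γ := by
  rw [← h.carQ, tw]
  exact ⟨fun k => by simpa using k.add (carQ_dv (h.cf m)), fun k => k.sub (carQ_dv _)⟩

theorem klt : Klt n (h.tw n Γ) ↔ Klt n Γ := by
  simp only [Klt, h.pl.surjective.forall, dsc_pl]

theorem lc : Lc n (h.tw n Γ) ↔ Lc n Γ := by
  simp only [Lc, h.pl.surjective.forall, dsc_pl]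

theorem neg_tw (m : ℕ) (Γ : BD K) : -h.tw m Γ - pb φ (-Γ) ∈ Prn K' := by
  rw [pb_neg, neg_sub_neg]
  exact h.prn_tw m Γ

theorem neg_tw' (m : ℕ) (Γ : BD K) : pb φ (-Γ) - -h.tw m Γ ∈ Prn K' := by
  rw [pb_neg, neg_sub_neg]
  exact h.tw_prn m Γ

theorem nef_neg_tw : Nef (-h.tw m Γ) ↔ Nef (-Γ) :=
  ⟨fun k => h.nef.1 (k.congr (h.neg_tw' m Γ)), fun k => (h.nef.2 k).congr (h.neg_tw m Γ)⟩

theorem big_neg_tw : Big (-h.tw m Γ) ↔ Big (-Γ) :=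
  ⟨fun k => h.big.1 (k.congr (h.neg_tw' m Γ)), fun k => (h.big.2 k).congr (h.neg_tw m Γ)⟩

theorem smp_neg_tw : Smp (-h.tw m Γ) ↔ Smp (-Γ) :=
  ⟨fun k => h.smp.1 (k.congr (h.neg_tw' m Γ)), fun k => (h.smp.2 k).congr (h.neg_tw m Γ)⟩

end Vale.Agent.P287D.Semi
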