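import Vale.Agent.P287D.Iso.Int
import Vale.Agent.P287D.Ba.Hy

/-!
# P287D: the row `ISO`; ring isomorphisms of function fields preserve the constants
-/

set_option linter.all false

open Set

noncomputable section

namespace Vale.Agent.P287D

variable {K K' : Type} [Field K] [Algebra ℂ K] [Field K'] [Algebra ℂ K'] {n m : ℕ}

/-- **ISO** -/
theorem iso : ISO := iso_of In.hy

end Vale.Agent.P287D
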